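import Vale.Agent.P232T93.Geo
import Vale.Agent.P232.H109.TorusBridge

/-!
# The flat torus and the product of three circles
-/

open MeasureTheory Filter Topology

namespace Vale.Agent.P232T

open Vale.Agent.P232.H109

/-- The torus is the product of three circles. -/
noncomputable def coE : T ≃+ Torus.T := AddEquiv.ofBijective co ⟨co_injective, co_surjective⟩

theorem norm_co_le (p : T) : ‖co p‖ ≤ 1 * ‖p‖ := by
  rw [one_mul]
  refine (pi_norm_le_iff_of_nonneg (norm_nonneg _)).2 fun i => ?_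
  refine (pow_le_pow_iff_left₀ (norm_nonneg _) (norm_nonneg _) two_ne_zero).1 ?_
  rw [norm_sq]
  exact Finset.single_le_sum (f := fun i => ‖co p i‖ ^ 2) (fun _ _ => sq_nonneg _)
    (Finset.mem_univ i)

theorem norm_le_co (p : T) : ‖p‖ ≤ 2 * ‖co p‖ := by
  refine (pow_le_pow_iff_left₀ (norm_nonneg _) (by positivity) two_ne_zero).1 ?_
  have h := fun i => pow_le_pow_left₀ (norm_nonneg _) (norm_le_pi_norm (co p) i) 2
  rw [norm_sq, Fin.sum_univ_three]
  nlinarith [h 0, h 1, h 2, sq_nonneg ‖co p‖]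

/-- The torus is the product of three circles. -/
noncomputable def coH : T ≃ₜ Torus.T where
  toEquiv := coE.toEquiv
  continuous_toFun := AddMonoidHomClass.continuous_of_bound co 1 norm_co_le
  continuous_invFun := AddMonoidHomClass.continuous_of_bound coE.symm 2 fun q => by
    have := norm_le_co (coE.symm q)
    rwa [show co (coE.symm q) = q from coE.apply_symm_apply q] at this

theorem vol_ball : vol (Metric.ball 0 (1 / 4)) = ENNReal.ofReal (4 / 3 * Real.pi * (1 / 4) ^ 3) := by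
  have h1 : Isometry fun x : Metric.ball (0 : R3) (1 / 4) => (x.1 : T) :=
    Isometry.of_dist_eq fun x y => dist_mk (mem_ball_zero_iff.1 x.2) (mem_ball_zero_iff.1 y.2)
  have h2 : (fun x : Metric.ball (0 : R3) (1 / 4) => (x.1 : T)) '' Set.univ =
      Metric.ball 0 (1 / 4) := by
    ext p
    rw [mem_ball_zero_iff, QuotientAddGroup.norm_lt_iff]
    exact ⟨fun ⟨x, _, h⟩ => ⟨x.1, h, mem_ball_zero_iff.1 x.2⟩,
      fun ⟨x, h, hx⟩ => ⟨⟨x, mem_ball_zero_iff.2 hx⟩, trivial, h⟩⟩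
  rw [← h2, vol, h1.euclideanHausdorffMeasure_image,
    ← isometry_subtype_coe.euclideanHausdorffMeasure_image, Subtype.coe_image_univ,
    EuclideanSpace.euclideanHausdorffMeasure_eq_volume, EuclideanSpace.volume_ball_fin_three,
    ← ENNReal.ofReal_pow (by norm_num), ← ENNReal.ofReal_mul (by norm_num)]
  congr 1
  ring

instance : vol.IsAddLeftInvariant :=
  ⟨fun p => ((IsometryEquiv.addLeft p).measurePreserving_euclideanHausdorffMeasure 3).map_eq⟩

instance : IsLocallyFiniteMeasure vol := ⟨fun p => ⟨(fun q => -p + q) ⁻¹' Metric.ball 0 (1 / 4),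
  (Metric.isOpen_ball.preimage (continuous_const_add _)).mem_nhds (by simp),
  by rw [measure_preimage_add, vol_ball]; exact ENNReal.ofReal_lt_top⟩⟩

instance : CompactSpace T := coH.symm.compactSpace

theorem pre_ball (c : T) {r : ℝ} (hr : 0 < r) : co ⁻¹' Torus.ball (co c) r = Metric.ball c r := by
  ext p
  rw [mem_ball_iff_norm, ← pow_lt_pow_iff_left₀ (norm_nonneg _) hr.le two_ne_zero, norm_sq, map_sub]
  rfl

theorem measurable_co : Measurable co := coH.continuous.measurable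

theorem mp : MeasurePreserving co vol volume := by
  refine ⟨measurable_co, ?_⟩
  have h0 : (vol.map co).IsAddLeftInvariant :=
    isAddLeftInvariant_map (co : T →+ Torus.T).toAddHom measurable_co co_surjective
  have h1 := Measure.isAddLeftInvariant_eq_smul (vol.map co) (volume : Measure Torus.T)
  obtain ⟨h2, h3, -⟩ := Torus.torus_model (v := 4 / 3 * Real.pi * (1 / 4) ^ 3)
    (B := Torus.ball (co 0) (1 / 4)) (by positivity) (by linarith [Real.pi_le_four])
    (Or.inl ⟨by linarith [Real.pi_pos], co 0, 1 / 4, by norm_num, rfl, rfl⟩)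
  have h4 := congrArg (fun μ : Measure Torus.T => μ.real (Torus.ball (co 0) (1 / 4))) h1
  simp only [measureReal_nnreal_smul_apply] at h4
  rw [h3, map_measureReal_apply measurable_co h2, pre_ball _ (by norm_num), Measure.real, vol_ball,
    ENNReal.toReal_ofReal (by positivity)] at h4
  have h5 : Measure.addHaarScalarFactor (vol.map co) (volume : Measure Torus.T) = 1 := by
    have := mul_right_cancel₀ (by positivity) ((one_mul _).trans h4)
    exact_mod_cast this.symm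
  rw [h1, h5, one_smul]

theorem vol_univ : vol Set.univ = 1 := by
  rw [← Set.preimage_univ (f := co), mp.measure_preimage MeasurableSet.univ.nullMeasurableSet,
    volume_pi, Measure.pi_univ]
  simp

theorem isField_iff (Y : Torus.T → R3) : IsField (Y ∘ co) ↔ Torus.IsField Y :=
  and_congr ⟨fun h => h.comp (EuclideanSpace.equiv (Fin 3) ℝ).symm.contDiff,
    fun h => h.comp (EuclideanSpace.equiv (Fin 3) ℝ).contDiff⟩ 
    (co_surjective.forall (p := fun p => ‖Y p‖ ≤ 1)).symm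

theorem div_eq {Y : Torus.T → R3} (h : IsField (Y ∘ co)) (p : T) :
    div (Y ∘ co) p = Torus.div Y (co p) := by
  obtain ⟨x, rfl⟩ := QuotientAddGroup.mk_surjective p
  have h1 : DifferentiableAt ℝ (fun v : R3 => (Y ∘ co) ((x : T) + v)) 0 :=
    ((h.1.differentiable one_ne_zero).comp (differentiable_id.const_add x)) 0
  rw [div, LinearMap.trace_eq_matrix_trace ℝ (EuclideanSpace.basisFun (Fin 3) ℝ).toBasis]
  refine Finset.sum_congr rfl fun i _ => ?_
  have h2 : HasDerivAt (fun t : ℝ => t • (EuclideanSpace.single i (1 : ℝ) : R3))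
      (EuclideanSpace.single i (1 : ℝ)) 0 := by
    simpa using (hasDerivAt_id (0 : ℝ)).smul_const (EuclideanSpace.single i (1 : ℝ) : R3)
  have h3 := (EuclideanSpace.proj (𝕜 := ℝ) i).hasFDerivAt.comp_hasDerivAt 0
    (h1.hasFDerivAt.comp_hasDerivAt_of_eq 0 h2 (zero_smul _ _).symm)
  have h4 : ∀ t : ℝ, co ((x : T) + (t • (EuclideanSpace.single i (1 : ℝ) : R3) : R3)) =
      co x + Pi.single i (t : UnitAddCircle) := fun t => by
    rw [map_add]
    congr 1
    funext j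
    rw [co_mk]
    by_cases hj : j = i
    · subst hj
      simp
    · simp [hj]
  rw [Matrix.diag_apply, LinearMap.toMatrix_apply]
  simp only [← h4]
  refine Eq.trans ?_ h3.deriv.symm
  simp

theorem perimeter_pre (E : Set Torus.T) : perimeter (co ⁻¹' E) = Torus.perimeter E := by
  have h0 : ∀ Y, IsField (Y ∘ co) →
      ∫ p in co ⁻¹' E, div (Y ∘ co) p ∂vol = ∫ p in E, Torus.div Y p := fun Y h => by
    simp only [div_eq h]
    exact mp.setIntegral_preimage_emb coH.measurableEmbedding _ E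
  refine le_antisymm (iSup₂_le fun X hX => ?_) (iSup₂_le fun Y hY => ?_)
  · have h1 : X = (X ∘ coE.symm) ∘ co := funext fun p => congrArg X (coE.symm_apply_apply p).symm
    rw [h1] at hX ⊢
    rw [h0 _ hX]
    exact le_iSup₂_of_le _ ((isField_iff _).1 hX) le_rfl
  · rw [← h0 _ ((isField_iff _).2 hY)]
    exact le_iSup₂_of_le _ ((isField_iff _).2 hY) le_rfl

theorem perimeter_congr {E F : Set T} (h : E =ᵐ[vol] F) : perimeter E = perimeter F := by
  simp only [perimeter, setIntegral_congr_set h]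

theorem real_pre {E : Set Torus.T} (h : MeasurableSet E) :
    vol.real (co ⁻¹' E) = volume.real E := mp.measureReal_preimage h.nullMeasurableSet

theorem ae_pre (E F : Set Torus.T) : co ⁻¹' E =ᵐ[vol] co ⁻¹' F ↔ E =ᵐ[volume] F := by
  rw [← mp.map_eq, Filter.eventuallyEq_set, Filter.eventuallyEq_set]
  exact (coH.measurableEmbedding.ae_map_iff (p := fun x => x ∈ E ↔ x ∈ F)).symm

theorem exists_pre {E : Set T} (h : NullMeasurableSet E vol) :
    ∃ F : Set Torus.T, MeasurableSet F ∧ E =ᵐ[vol] co ⁻¹' F :=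
  ⟨co '' toMeasurable vol E,
    coH.measurableEmbedding.measurableSet_image.2 (measurableSet_toMeasurable _ _), by
      rw [Set.preimage_image_eq _ co_injective]
      exact h.toMeasurable_ae_eq.symm⟩

theorem profile_eq {V : ℝ} (h0 : 0 < V) (h1 : V < 1) : profile V = Torus.profile V := by
  refine le_antisymm (le_iInf₂ fun F hF => le_iInf fun hV => ?_)
    (le_iInf₂ fun E hE => le_iInf₂ fun _ hV => ?_)
  · rw [← perimeter_pre]
    rcases (le_top (a := perimeter (co ⁻¹' F))).eq_or_lt with h | h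
    · exact h ▸ le_top
    · exact iInf₂_le_of_le _ (measurable_co hF).nullMeasurableSet
        (iInf₂_le_of_le h ((real_pre hF).trans hV) le_rfl)
  · obtain ⟨F, hF, h⟩ := exists_pre hE
    rw [perimeter_congr h, perimeter_pre]
    exact iInf₂_le_of_le F hF (iInf_le_of_le
      ((real_pre hF).symm.trans ((measureReal_congr h).symm.trans hV)) le_rfl)

theorem pre_slab (i : Fin 3) (a w : ℝ) : co ⁻¹' Torus.slab i a w = slab i a w := by
  ext p
  refine ⟨fun ⟨t, h1, h2, h⟩ => ?_, fun ⟨x, hx, h⟩ => ⟨x i, hx.1, hx.2, h ▸ rfl⟩⟩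
  obtain ⟨x, rfl⟩ := QuotientAddGroup.mk_surjective p
  refine ⟨WithLp.toLp 2 (Function.update x i t), by simpa using ⟨h1, h2⟩,
    co_injective (funext fun j => ?_)⟩
  by_cases hj : j = i
  · subst hj
    rw [h, co_mk]
    simp
  · rw [co_mk, co_mk]
    simp [hj]

theorem pre_tube (c : T) (i : Fin 3) {σ : ℝ} (hσ : σ = 1 ∨ σ = -1) {γ : ℝ → T}
    (h : ∀ t, γ t = c + (EuclideanSpace.single i (σ * t) : R3)) {r : ℝ} (hr : 0 < r) :
    co ⁻¹' Torus.tube i (co c) r = Metric.thickening r (Set.range γ) := by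
  ext p
  have h1 : ∀ t, dist p (γ t) < r ↔ ‖co p i - co c i - (σ * t : ℝ)‖ ^ 2 +
      ∑ j ∈ Finset.univ.erase i, ‖co p j - co c j‖ ^ 2 < r ^ 2 := fun t => by
    rw [dist_eq_norm, ← pow_lt_pow_iff_left₀ (norm_nonneg _) hr.le two_ne_zero, norm_sq,
      ← Finset.add_sum_erase _ _ (Finset.mem_univ i), h, map_sub, map_add]
    refine iff_of_eq (congrArg (· < r ^ 2) (congrArg₂ (· + ·) ?_
      (Finset.sum_congr rfl fun j hj => ?_)))
    · simp [co_mk, sub_sub]
    · simp [co_mk, Finset.ne_of_mem_erase hj]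
  rw [Metric.mem_thickening_iff]
  simp only [Set.exists_range_iff, h1]
  refine ⟨fun hp => ?_, fun ⟨t, ht⟩ => lt_of_le_of_lt (le_add_of_nonneg_left (sq_nonneg _)) ht⟩
  obtain ⟨u, hu⟩ := QuotientAddGroup.mk_surjective (co p i - co c i)
  refine ⟨σ * u, ?_⟩
  have h2 : σ * (σ * u) = u := by rcases hσ with rfl | rfl <;> ring
  rw [h2, hu, sub_self, norm_zero, zero_pow two_ne_zero, zero_add]
  exact hp

theorem model_iff {v : ℝ} (hv : 0 < v) (B : Set T) :
    Model v B ↔ ∃ B', Torus.Model v B' ∧ B = co ⁻¹' B' := by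
  have hr : 0 < √(v / Real.pi) := Real.sqrt_pos.2 (div_pos hv Real.pi_pos)
  have hr' : Real.pi * √(v / Real.pi) ^ 2 = v := by
    rw [Real.sq_sqrt (div_pos hv Real.pi_pos).le, mul_div_cancel₀ _ Real.pi_ne_zero]
  constructor
  · rintro (⟨h, c, r, h0, h1, rfl⟩ | ⟨h, h', γ, hγ, rfl⟩ | ⟨h, i, a, rfl⟩)
    · exact ⟨_, Or.inl ⟨h, co c, r, h0, h1, rfl⟩, (pre_ball c h0).symm⟩
    · obtain ⟨c, i, σ, hσ, h2⟩ := (isShortest_iff γ).1 hγ
      exact ⟨_, Or.inr (Or.inl ⟨h, h', i, co c, _, hr, hr', rfl⟩), (pre_tube c i hσ h2 hr).symm⟩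
    · exact ⟨_, Or.inr (Or.inr ⟨h, i, a, rfl⟩), (pre_slab i a v).symm⟩
  · rintro ⟨_, ⟨h, c, r, h0, h1, rfl⟩ | ⟨h, h', i, c, r, h0, h1, rfl⟩ | ⟨h, i, a, rfl⟩, rfl⟩
    · obtain ⟨c, rfl⟩ := co_surjective c
      exact Or.inl ⟨h, c, r, h0, h1, pre_ball c h0⟩
    · obtain ⟨c, rfl⟩ := co_surjective c
      have h2 : r = √(v / Real.pi) := by
        rw [← h1, mul_div_cancel_left₀ _ Real.pi_ne_zero, Real.sqrt_sq h0.le]
      exact Or.inr (Or.inl ⟨h, h', _, (isShortest_iff _).2 ⟨c, i, 1, Or.inl rfl, fun _ => rfl⟩,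
        h2 ▸ pre_tube c i (Or.inl rfl) (fun _ => rfl) h0⟩)
    · exact Or.inr (Or.inr ⟨h, i, a, pre_slab i a v⟩)

theorem profile_J {V : ℝ} (h0 : 0 < V) (h1 : V < 1) : profile V = ENNReal.ofReal (J V) :=
  (profile_eq h0 h1).trans (Torus.torus_profile h0 h1)

theorem measurable_model {v : ℝ} (h0 : 0 < v) (h1 : v ≤ 1 / 2) {B : Set T} (h : Model v B) :
    MeasurableSet B ∧ vol.real B = v := by
  obtain ⟨B', h2, rfl⟩ := (model_iff h0 B).1 h
  obtain ⟨h3, h4, -⟩ := Torus.torus_model h0 h1 h2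
  exact ⟨measurable_co h3, (real_pre h3).trans h4⟩

theorem exists_ae_iff {v : ℝ} (h0 : 0 < v) (F : Set Torus.T) :
    ((∃ B, Torus.Model v B ∧ F =ᵐ[volume] B) ↔ ∃ B, Model v B ∧ co ⁻¹' F =ᵐ[vol] B) ∧
    ((∃ B, Torus.Model v B ∧ F =ᵐ[volume] (Bᶜ : Set Torus.T)) ↔
      ∃ B, Model v B ∧ co ⁻¹' F =ᵐ[vol] (Bᶜ : Set T)) := by
  refine ⟨⟨fun ⟨B, hB, e⟩ => ⟨_, (model_iff h0 _).2 ⟨B, hB, rfl⟩, (ae_pre F B).2 e⟩,
    fun ⟨B, hB, e⟩ => ?_⟩, fun ⟨B, hB, e⟩ => ⟨_, (model_iff h0 _).2 ⟨B, hB, rfl⟩,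
      (ae_pre F Bᶜ).2 e⟩, fun ⟨B, hB, e⟩ => ?_⟩
  · obtain ⟨B', h4, rfl⟩ := (model_iff h0 B).1 hB
    exact ⟨B', h4, (ae_pre F B').1 e⟩
  · obtain ⟨B', h4, rfl⟩ := (model_iff h0 B).1 hB
    exact ⟨B', h4, (ae_pre F B'ᶜ).1 e⟩

theorem minimizer_iff {V : ℝ} (h0 : 0 < V) (h1 : V < 1) (E : Set T) :
    IsMinimizer V E ↔ (V ≤ 1 / 2 ∧ ∃ B, Model V B ∧ E =ᵐ[vol] B) ∨
      (1 / 2 ≤ V ∧ ∃ B, Model (1 - V) B ∧ E =ᵐ[vol] (Bᶜ : Set T)) := by
  have key : NullMeasurableSet E vol → vol.real E = V → (perimeter E = profile V ↔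
      (V ≤ 1 / 2 ∧ ∃ B, Model V B ∧ E =ᵐ[vol] B) ∨
      (1 / 2 ≤ V ∧ ∃ B, Model (1 - V) B ∧ E =ᵐ[vol] (Bᶜ : Set T))) := fun hE hV => by
    obtain ⟨F, hF, h⟩ := exists_pre hE
    have h2 : volume.real F = V := (real_pre hF).symm.trans ((measureReal_congr h).symm.trans hV)
    have h3 := Torus.torus_iff hF (h0.trans_eq h2.symm) (h2.trans_lt h1)
    have h4 : ∀ B : Set T, co ⁻¹' F =ᵐ[vol] B ↔ E =ᵐ[vol] B := fun B => ⟨h.trans, h.symm.trans⟩
    rw [h2, (exists_ae_iff h0 F).1, (exists_ae_iff (sub_pos.2 h1) F).2] at h3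
    simp only [h4] at h3
    rw [perimeter_congr h, perimeter_pre, profile_eq h0 h1, h3]
  refine ⟨fun h => (key h.1 h.2.1).1 h.2.2, fun h => ?_⟩
  have h2 : NullMeasurableSet E vol ∧ vol.real E = V := by
    rcases h with ⟨h, B, hB, e⟩ | ⟨h, B, hB, e⟩
    · obtain ⟨h3, h4⟩ := measurable_model h0 h hB
      exact ⟨h3.nullMeasurableSet.congr e.symm, (measureReal_congr e).trans h4⟩
    · obtain ⟨h3, h4⟩ := measurable_model (sub_pos.2 h1) (by linarith) hB
      refine ⟨h3.compl.nullMeasurableSet.congr e.symm, (measureReal_congr e).trans ?_⟩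
      rw [measureReal_compl h3, h4, Measure.real, vol_univ, ENNReal.toReal_one, sub_sub_cancel]
  exact ⟨h2.1, h2.2, (key h2.1 h2.2).2 h⟩

theorem exists_model {v : ℝ} (h0 : 0 < v) : ∃ B, Model v B := by
  by_cases h1 : v ≤ 4 * Real.pi / 81
  · refine ⟨_, Or.inl ⟨h1, 0, (v / (4 / 3 * Real.pi)) ^ ((3 : ℕ)⁻¹ : ℝ), by positivity, ?_, rfl⟩⟩
    rw [Real.rpow_inv_natCast_pow (by positivity) three_ne_zero, mul_div_cancel₀ _ (by positivity)]
  · by_cases h2 : v ≤ 1 / Real.pi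
    · exact ⟨_, Or.inr (Or.inl ⟨(not_le.1 h1).le, h2, _,
        (isShortest_iff _).2 ⟨0, 0, 1, Or.inl rfl, fun _ => rfl⟩, rfl⟩)⟩
    · exact ⟨_, Or.inr (Or.inr ⟨(not_le.1 h2).le, 0, 0, rfl⟩)⟩

theorem exists_minimizer {V : ℝ} (h0 : 0 < V) (h1 : V < 1) : ∃ E, IsMinimizer V E := by
  rcases le_total V (1 / 2) with h | h
  · obtain ⟨B, hB⟩ := exists_model h0
    exact ⟨B, (minimizer_iff h0 h1 B).2 (Or.inl ⟨h, B, hB, .rfl⟩)⟩
  · obtain ⟨B, hB⟩ := exists_model (sub_pos.2 h1)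
    exact ⟨Bᶜ, (minimizer_iff h0 h1 _).2 (Or.inr ⟨h, B, hB, .rfl⟩)⟩

end Vale.Agent.P232T
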