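import Mathlib.Geometry.Euclidean.Volume.Measure
import Mathlib.Analysis.Normed.Group.Quotient
import Mathlib.MeasureTheory.Constructions.Polish.Basic
import Mathlib.MeasureTheory.Integral.Bochner.Basic
import Mathlib.Analysis.Calculus.ContDiff.Defs
import Mathlib.Analysis.SpecialFunctions.Pow.Real
import Mathlib.LinearAlgebra.Trace
import Mathlib.Topology.MetricSpace.Thickening

/-!
# The isoperimetric problem in the cubic flat three-torus
-/

open MeasureTheory

namespace Vale.Agent.P232T

/-- The Euclidean space `ℝ³`. -/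
abbrev R3 : Type := EuclideanSpace ℝ (Fin 3)

/-- The lattice `ℤ³` of the points with integer coordinates. -/
def Z3 : AddSubgroup R3 where
  carrier := {x | ∀ i, ∃ n : ℤ, (n : ℝ) = x i}
  zero_mem' _ := ⟨0, Int.cast_zero⟩
  add_mem' ha hb i := (ha i).elim fun m hm => (hb i).elim fun n hn =>
    ⟨m + n, (Int.cast_add m n).trans (congrArg₂ (· + ·) hm hn)⟩
  neg_mem' ha i := (ha i).elim fun m hm => ⟨-m, (Int.cast_neg m).trans (congrArg (- ·) hm)⟩

instance isClosed_Z3 : IsClosed (Z3 : Set R3) := by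
  have h : (Z3 : Set R3) = ⋂ i, (fun x : R3 => x i) ⁻¹' Set.range ((↑) : ℤ → ℝ) :=
    Set.ext fun _ => ⟨fun h => Set.mem_iInter.2 h, fun h => Set.mem_iInter.1 h⟩
  rw [h]
  exact isClosed_iInter fun i =>
    Int.isClosedEmbedding_coe_real.isClosed_range.preimage (by fun_prop)

/-- The torus `ℝ³/ℤ³`. Its distance is Mathlib's quotient distance, the least Euclidean distance of
representatives: the flat metric. -/
abbrev T : Type := R3 ⧸ Z3

/-- The volume: the three-dimensional Hausdorff measure of the flat metric, normalized so that it is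
the Lebesgue measure on the Euclidean space. -/
noncomputable def vol : Measure T := μHE[3]

/-- `X` is a `C¹` vector field on `T` of length at most one. -/
def IsField (X : T → R3) : Prop := ContDiff ℝ 1 (fun x : R3 => X x) ∧ ∀ p, ‖X p‖ ≤ 1

/-- The divergence: the trace of the derivative. -/
noncomputable def div (X : T → R3) (p : T) : ℝ :=
  LinearMap.trace ℝ R3 (fderiv ℝ (fun v : R3 => X (p + v)) 0).toLinearMap

/-- De Giorgi's perimeter. -/
noncomputable def perimeter (E : Set T) : ENNReal :=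
  ⨆ (X : T → R3) (_ : IsField X), ENNReal.ofReal (∫ p in E, div X p ∂vol)

/-- The isoperimetric profile `I(V)`. -/
noncomputable def profile (V : ℝ) : ENNReal :=
  ⨅ (E : Set T) (_ : NullMeasurableSet E vol) (_ : perimeter E < ⊤) (_ : vol.real E = V),
    perimeter E

/-- `E` is a minimizer of volume `V`. -/
def IsMinimizer (V : ℝ) (E : Set T) : Prop :=
  NullMeasurableSet E vol ∧ vol.real E = V ∧ perimeter E = profile V

/-- The conjectured profile `J(V)`. -/
noncomputable def J (V : ℝ) : ℝ :=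
  min (min ((36 * Real.pi) ^ (1 / 3 : ℝ) * (min V (1 - V)) ^ (2 / 3 : ℝ))
    (2 * Real.sqrt (Real.pi * min V (1 - V)))) 2

/-- `γ` is a closed geodesic of length `l`, run through at unit speed: it has the period `l` and it
preserves the distances locally. -/
def IsClosedGeodesic (γ : ℝ → T) (l : ℝ) : Prop :=
  0 < l ∧ Function.Periodic γ l ∧ ∀ t : ℝ, ∃ ε > 0, ∀ s ∈ Metric.ball t ε, ∀ s' ∈ Metric.ball t ε,
    dist (γ s) (γ s') = dist s s'

/-- `γ` is a shortest closed geodesic. -/
def IsShortest (γ : ℝ → T) : Prop :=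
  ∃ l, IsClosedGeodesic γ l ∧ ∀ γ' l', IsClosedGeodesic γ' l' → l ≤ l'

/-- The slab `a < x_i < a + w`. -/
def slab (i : Fin 3) (a w : ℝ) : Set T := (fun x : R3 => (x : T)) '' {x | a < x i ∧ x i < a + w}

/-- The regions of volume `v ≤ 1/2`: geodesic balls for `v ≤ 4π/81`, solid tubes about a shortest
closed geodesic for `4π/81 ≤ v ≤ 1/π`, slabs for `1/π ≤ v`. -/
def Model (v : ℝ) (B : Set T) : Prop :=
  (v ≤ 4 * Real.pi / 81 ∧ ∃ c r, 0 < r ∧ 4 / 3 * Real.pi * r ^ 3 = v ∧ B = Metric.ball c r) ∨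
  (4 * Real.pi / 81 ≤ v ∧ v ≤ 1 / Real.pi ∧
    ∃ γ, IsShortest γ ∧ B = Metric.thickening (Real.sqrt (v / Real.pi)) (Set.range γ)) ∨
  (1 / Real.pi ≤ v ∧ ∃ i a, B = slab i a v)

end Vale.Agent.P232T
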