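import Vale.Agent.P232T93.Defs
import Mathlib.Analysis.Normed.Group.AddCircle
import Mathlib.Topology.LocallyConstant.Basic

/-!
# The flat metric and the closed geodesics of the torus
-/

open MeasureTheory Filter Topology

namespace Vale.Agent.P232T

/-- The coordinates modulo one. -/
noncomputable def co0 : R3 →+ (Fin 3 → UnitAddCircle) where
  toFun x i := (x i : UnitAddCircle)
  map_zero' := rfl
  map_add' _ _ := rfl

theorem mem_Z3 (x : R3) : x ∈ Z3 ↔ co0 x = 0 :=
  (forall_congr' fun i => by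
    refine Iff.trans ?_ (AddCircle.coe_eq_zero_iff (1 : ℝ) (x := x i)).symm
    simp only [zsmul_one]).trans funext_iff.symm

/-- The coordinates modulo one. -/
noncomputable def co : T →+ (Fin 3 → UnitAddCircle) :=
  QuotientAddGroup.lift Z3 co0 fun x hx => (mem_Z3 x).1 hx

theorem co_mk (x : R3) (i : Fin 3) : co (x : T) i = (x i : UnitAddCircle) := rfl

theorem co_injective : Function.Injective co := by
  refine (injective_iff_map_eq_zero _).2 fun p hp => ?_
  obtain ⟨x, rfl⟩ := QuotientAddGroup.mk_surjective p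
  exact (QuotientAddGroup.eq_zero_iff x).2 ((mem_Z3 x).2 hp)

theorem co_surjective : Function.Surjective co := fun q => by
  choose x hx using fun i => QuotientAddGroup.mk_surjective (q i)
  exact ⟨(WithLp.toLp 2 x : R3), funext hx⟩

theorem norm_sq (p : T) : ‖p‖ ^ 2 = ∑ i, ‖co p i‖ ^ 2 := by
  refine le_antisymm ?_ ?_
  · obtain ⟨x, rfl⟩ := QuotientAddGroup.mk_surjective p
    have h : ((WithLp.toLp 2 fun i => x i - round (x i) : R3) : T) = x :=
      co_injective (funext fun i => by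
        rw [co_mk, co_mk]
        exact (AddCircle.coe_sub _ _ _).trans (sub_eq_self.2
          ((AddCircle.coe_eq_zero_iff (1 : ℝ)).2 ⟨round (x i), zsmul_one _⟩)))
    have h2 : ‖(WithLp.toLp 2 fun i => x i - round (x i) : R3)‖ ^ 2 = ∑ i, ‖co (x : T) i‖ ^ 2 := by
      rw [EuclideanSpace.norm_sq_eq]
      exact Finset.sum_congr rfl fun i _ => by rw [co_mk, UnitAddCircle.norm_eq]; rfl
    rw [← h2, ← h]
    exact pow_le_pow_left₀ (norm_nonneg _) QuotientAddGroup.norm_mk_le_norm 2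
  · refine (Real.sqrt_le_left (norm_nonneg _)).1 (QuotientAddGroup.le_norm_iff.2 ?_)
    rintro x rfl
    refine (Real.sqrt_le_left (norm_nonneg _)).2 ?_
    rw [EuclideanSpace.norm_sq_eq]
    exact Finset.sum_le_sum fun i _ =>
      pow_le_pow_left₀ (norm_nonneg _) QuotientAddGroup.norm_mk_le_norm 2

theorem norm_mk {x : R3} (h : ‖x‖ ≤ 1 / 2) : ‖(x : T)‖ = ‖x‖ := by
  refine (sq_eq_sq₀ (norm_nonneg _) (norm_nonneg _)).1 ?_
  rw [norm_sq, EuclideanSpace.norm_sq_eq]
  refine Finset.sum_congr rfl fun i _ => ?_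
  rw [co_mk, (AddCircle.norm_coe_eq_abs_iff (1 : ℝ) one_ne_zero).2
    ((PiLp.norm_apply_le x i).trans (by rwa [abs_one])), Real.norm_eq_abs]

theorem dist_mk {x y : R3} (hx : ‖x‖ < 1 / 4) (hy : ‖y‖ < 1 / 4) :
    dist (x : T) (y : T) = dist x y := by
  rw [dist_eq_norm, dist_eq_norm, ← QuotientAddGroup.mk_sub]
  exact norm_mk ((norm_sub_le x y).trans (by linarith))

theorem local_line {γ : ℝ → T} {t ε : ℝ} (hε : 0 < ε)
    (h : ∀ s ∈ Metric.ball t ε, ∀ s' ∈ Metric.ball t ε, dist (γ s) (γ s') = dist s s') :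
    ∃ v : R3, ‖v‖ = 1 ∧ ∀ᶠ s in 𝓝 t, γ s = γ t + ((s - t) • v : R3) := by
  set δ := min ε (1 / 4) with hδ
  have hδ0 : 0 < δ := lt_min hε (by norm_num)
  have hs : Metric.ball t δ ⊆ Metric.ball t ε := Metric.ball_subset_ball (min_le_left _ _)
  have h1 : ∀ s ∈ Metric.ball t δ, ∃ w : R3, (w : T) = γ s - γ t ∧ ‖w‖ < 1 / 4 := fun s hs' =>
    QuotientAddGroup.norm_lt_iff.1 (by
      rw [← dist_eq_norm, h s (hs hs') t (Metric.mem_ball_self hε)]
      exact lt_of_lt_of_le hs' (min_le_right _ _))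
  choose! w hw hn using h1
  have h2 : ∀ s ∈ Metric.ball t δ, ‖w s‖ = |s - t| := fun s hs' => by
    rw [← norm_mk ((hn s hs').le.trans (by norm_num)), hw s hs', ← dist_eq_norm,
      h s (hs hs') t (Metric.mem_ball_self hε), Real.dist_eq]
  have h3 : ∀ s ∈ Metric.ball t δ, ∀ s' ∈ Metric.ball t δ, ‖w s - w s'‖ = |s - s'| :=
    fun s hs' s' hs'' => by
      rw [← dist_eq_norm, ← dist_mk (hn s hs') (hn s' hs''), hw s hs', hw s' hs'',
        dist_sub_right, h s (hs hs') s' (hs hs''), Real.dist_eq]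
  have ha : t + δ / 2 ∈ Metric.ball t δ := by
    rw [Metric.mem_ball, Real.dist_eq, add_sub_cancel_left, abs_of_pos (half_pos hδ0)]
    exact half_lt_self hδ0
  have hv : ‖(2 / δ) • w (t + δ / 2)‖ = 1 := by
    rw [norm_smul, h2 _ ha, add_sub_cancel_left, Real.norm_eq_abs, ← abs_mul]
    have : 2 / δ * (δ / 2) = 1 := by field_simp
    rw [this, abs_one]
  refine ⟨_, hv, Filter.mem_of_superset (Metric.ball_mem_nhds t hδ0) fun s hs' => ?_⟩
  change γ s = _
  have h4 := norm_sub_sq_real (w s) (w (t + δ / 2))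
  rw [h3 s hs' _ ha, h2 s hs', h2 _ ha, sq_abs, sq_abs, sq_abs] at h4
  have h5 : inner ℝ (w s) (w (t + δ / 2)) = (s - t) * (δ / 2) := by linarith
  have h6 := norm_sub_sq_real (w s) ((s - t) • (2 / δ) • w (t + δ / 2))
  rw [norm_smul, hv, inner_smul_right, inner_smul_right, h5, h2 s hs', mul_one, Real.norm_eq_abs,
    sq_abs] at h6
  have h7 : w s = (s - t) • (2 / δ) • w (t + δ / 2) := by
    refine sub_eq_zero.1 (norm_eq_zero.1 (pow_eq_zero_iff two_ne_zero |>.1 (h6.trans ?_)))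
    field_simp
    ring
  rw [← h7, hw s hs', add_sub_cancel]

theorem dir_unique {t : ℝ} {u v : R3}
    (h : ∀ᶠ s in 𝓝 t, (((s - t) • u : R3) : T) = ((s - t) • v : R3)) : u = v := by
  have h1 : ∀ᶠ s in 𝓝 t, ‖(s - t) • (u - v)‖ < 1 / 2 :=
    (show ContinuousAt (fun s : ℝ => ‖(s - t) • (u - v)‖) t by fun_prop).eventually_lt_const
      (by simp)
  obtain ⟨s, ⟨h2, h3⟩, h4⟩ :=
    (((h.and h1).filter_mono (nhdsWithin_le_nhds (s := {t}ᶜ))).and self_mem_nhdsWithin).exists
  have h5 := norm_mk h3.le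
  rw [smul_sub, QuotientAddGroup.mk_sub, h2, sub_self, norm_zero, ← smul_sub] at h5
  exact sub_eq_zero.1 ((smul_eq_zero.1 (norm_eq_zero.1 h5.symm)).resolve_left (sub_ne_zero.2 h4))

theorem global_line {γ : ℝ → T} (h : ∀ t : ℝ, ∃ ε > 0, ∀ s ∈ Metric.ball t ε,
    ∀ s' ∈ Metric.ball t ε, dist (γ s) (γ s') = dist s s') :
    ∃ v : R3, ‖v‖ = 1 ∧ ∀ t, γ t = γ 0 + (t • v : R3) := by
  choose V hV h1 using fun t => (h t).elim fun ε hε => local_line hε.1 hε.2
  have h2 : IsLocallyConstant V := (IsLocallyConstant.iff_eventually_eq V).2 fun t => by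
    filter_upwards [(h1 t).eventually_nhds] with r hr
    refine dir_unique (t := r) ?_
    filter_upwards [hr, h1 r] with s h3 h4
    refine add_left_cancel (a := γ r) ?_
    rw [← h4, h3, hr.self_of_nhds, add_assoc, ← QuotientAddGroup.mk_add, ← add_smul]
    congr 3
    ring
  have h3 : IsLocallyConstant fun s => γ s - ((s • V 0 : R3) : T) :=
    (IsLocallyConstant.iff_eventually_eq _).2 fun t => by
      filter_upwards [h1 t] with s hs
      rw [hs, h2.apply_eq_of_preconnectedSpace t 0, sub_smul, QuotientAddGroup.mk_sub]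
      abel
  refine ⟨V 0, hV 0, fun t => ?_⟩
  have h4 := h3.apply_eq_of_preconnectedSpace t 0
  simp only [zero_smul, QuotientAddGroup.mk_zero, sub_zero] at h4
  rw [← h4, sub_add_cancel]

theorem geodesic_axis (c : T) (i : Fin 3) {σ : ℝ} (hσ : σ = 1 ∨ σ = -1) {γ : ℝ → T}
    (h : ∀ t, γ t = c + (EuclideanSpace.single i (σ * t) : R3)) : IsClosedGeodesic γ 1 := by
  have h0 : ∀ s t, γ s - γ t = (EuclideanSpace.single i (σ * (s - t)) : R3) := fun s t => by
    rw [h, h, add_sub_add_left_eq_sub, ← QuotientAddGroup.mk_sub, mul_sub]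
    exact congrArg _ (PiLp.single_sub 2 i).symm
  have hn : ∀ r, ‖(EuclideanSpace.single i (σ * r) : R3)‖ = |r| := fun r => by
    rcases hσ with rfl | rfl <;> simp
  refine ⟨one_pos, fun t => sub_eq_zero.1 ?_, fun t => ⟨1 / 4, by norm_num, fun s hs s' hs' => ?_⟩⟩
  · rw [h0, add_sub_cancel_left, mul_one]
    refine (QuotientAddGroup.eq_zero_iff _).2 fun j => ?_
    by_cases hj : j = i
    · subst hj
      rcases hσ with rfl | rfl
      · exact ⟨1, by simp⟩
      · exact ⟨-1, by simp⟩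
    · exact ⟨0, by simp [hj]⟩
  · rw [dist_eq_norm, h0, norm_mk, hn, Real.dist_eq]
    rw [hn, ← Real.dist_eq]
    have := dist_triangle_right s s' t
    rw [Metric.mem_ball] at hs hs'
    linarith

theorem geodesic_length {γ : ℝ → T} {l : ℝ} (h : IsClosedGeodesic γ l) :
    1 ≤ l ∧ (l = 1 → ∃ (c : T) (i : Fin 3) (σ : ℝ), (σ = 1 ∨ σ = -1) ∧
      ∀ t, γ t = c + (EuclideanSpace.single i (σ * t) : R3)) := by
  obtain ⟨v, hv, h1⟩ := global_line h.2.2
  have h2 : ((l • v : R3) : T) = 0 := by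
    have := h.2.1 0
    rw [zero_add, h1 l] at this
    exact add_eq_left.1 this
  choose n hn using (QuotientAddGroup.eq_zero_iff _).1 h2
  have h3 : ((∑ i, n i ^ 2 : ℤ) : ℝ) = l ^ 2 := by
    have h4 := EuclideanSpace.norm_sq_eq (l • v)
    rw [norm_smul, hv, mul_one, Real.norm_eq_abs, sq_abs] at h4
    rw [h4, Int.cast_sum]
    exact Finset.sum_congr rfl fun i _ => by rw [Int.cast_pow, hn, Real.norm_eq_abs, sq_abs]
  have h4 : 0 < ∑ i, n i ^ 2 := by
    have := pow_pos h.1 2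
    rw [← h3] at this
    exact_mod_cast this
  refine ⟨?_, ?_⟩
  · have h5 : (1 : ℝ) ≤ l ^ 2 := by
      rw [← h3]
      exact_mod_cast h4
    exact (one_le_sq_iff₀ h.1.le).1 h5
  · rintro rfl
    have h5 : ∑ i, n i ^ 2 = 1 := by
      rw [one_pow] at h3
      exact_mod_cast h3
    obtain ⟨i, -, hi⟩ := Finset.exists_ne_zero_of_sum_ne_zero h4.ne'
    have h6 := Finset.add_sum_erase Finset.univ (fun i => n i ^ 2) (Finset.mem_univ i)
    have h7 : 0 ≤ ∑ j ∈ Finset.univ.erase i, n j ^ 2 := Finset.sum_nonneg fun j _ => sq_nonneg _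
    have h8 : 0 < n i ^ 2 := lt_of_le_of_ne (sq_nonneg _) hi.symm
    have h9 : n i ^ 2 = 1 := by omega
    have h10 : ∑ j ∈ Finset.univ.erase i, n j ^ 2 = 0 := by omega
    refine ⟨γ 0, i, n i, ?_, fun t => ?_⟩
    · rcases sq_eq_one_iff.1 h9 with h | h <;> simp [h]
    · rw [h1 t]
      congr 2
      ext j
      have hj := hn j
      rw [one_smul] at hj
      by_cases hji : j = i
      · subst hji
        simp [hj, mul_comm]
      · have := (Finset.sum_eq_zero_iff_of_nonneg fun j _ => sq_nonneg (n j)).1 h10 j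
          (Finset.mem_erase.2 ⟨hji, Finset.mem_univ j⟩)
        simp [hji, ← hj, pow_eq_zero_iff two_ne_zero |>.1 this]

theorem isLeast_length : IsLeast {l | ∃ γ, IsClosedGeodesic γ l} 1 :=
  ⟨⟨_, geodesic_axis 0 0 (Or.inl rfl) fun _ => rfl⟩, fun _ ⟨_, h⟩ => (geodesic_length h).1⟩

theorem isShortest_iff (γ : ℝ → T) : IsShortest γ ↔ ∃ (c : T) (i : Fin 3) (σ : ℝ),
    (σ = 1 ∨ σ = -1) ∧ ∀ t, γ t = c + (EuclideanSpace.single i (σ * t) : R3) :=
  ⟨fun ⟨_, h, h'⟩ => (geodesic_length h).2 (le_antisymm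
      (isLeast_length.1.elim fun γ' h'' => h' γ' 1 h'') (geodesic_length h).1),
    fun ⟨c, i, _, hσ, h⟩ => ⟨1, geodesic_axis c i hσ h, fun _ _ h' => (geodesic_length h').1⟩⟩

end Vale.Agent.P232T
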